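import Vale.Agent.P011.D4.Orbit
import Vale.Agent.P011.D4T.H493.Nbr

/-!
Block D4I: chains of singular elements which are fixed by the semilinear involution `I`.
-/

namespace Vale.Agent.P011.D4I

open Vale.Agent.P011.MPQ Vale.Agent.P011.D4 Vale.Agent.P011.D4.Oct Vale.Agent.P011.D4T

section conn

variable {k L : Type} [Field k] [Field L] [Algebra k L] {a b c : kˣ} {ρ ι : L ≃ₐ[k] L}

theorem invo_add (x y : OctL L a b c) : invo ι (x + y) = invo ι x + invo ι y := by
  rw [invo, star_add, omap_add]; rfl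

theorem invo_smul (t : L) (x : OctL L a b c) : invo ι (t • x) = ι t • invo ι x := by
  rw [invo, star_smul_oct, omap_smul]; rfl

theorem invo_invo (hι : ∀ m, ι (ι m) = m) (x : OctL L a b c) : invo ι (invo ι x) = x := by
  rw [invo, invo, ← omap_star, star_star]
  apply ext8 <;> exact hι _

theorem norm_invo (x : OctL L a b c) : norm (invo ι x) = ι (norm x) := by
  rw [invo, Orb.norm_omap, Oct.norm_star]

theorem bil_invo (x y : OctL L a b c) : bil (invo ι x) (invo ι y) = ι (bil x y) := by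
  rw [bil, bil, ← invo_add, norm_invo, norm_invo, norm_invo, map_sub, map_sub]

theorem invo_tri (hρ : ∀ m, ρ (ρ (ρ m)) = m) (hιρ : ∀ m, ι (ρ m) = ρ (ρ (ι m)))
    (x y : OctL L a b c) : invo ι (tri ρ x y) = tri ρ (invo ι y) (invo ι x) := by
  have e2 : ∀ m, ι (ρ (ρ m)) = ρ (ι m) := fun m => by rw [hιρ, hιρ, hρ]
  have e3 : ∀ z : OctL L a b c, omap ι (omap ρ (omap ρ z)) = omap ρ (omap ι z) := by
    intro z
    apply ext8 <;> exact e2 _
  have e4 : ∀ z : OctL L a b c, omap ι (omap ρ z) = omap ρ (omap ρ (omap ι z)) := by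
    intro z
    apply ext8 <;> exact hιρ _
  have e5 : ∀ z : OctL L a b c, star (omap ι (star z)) = omap ι z := fun z => by
    rw [← omap_star, star_star]
  rw [invo, tri, tri, star_mul, omap_mul, ← omap_star, ← omap_star, ← omap_star, star_star,
    star_star, e3, e4, invo, invo, e5, e5]

/-- A nonzero element which is fixed by `I` up to sign has a multiple which is fixed. -/
theorem exists_fix {δ : L} (hδ : δ ≠ 0) (hδι : ι δ = -δ) (hι : ∀ m, ι (ι m) = m)
    {x : OctL L a b c} (hx : x ≠ 0) : ∃ y, y ≠ 0 ∧ invo ι y = y ∧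
      (y = x + invo ι x ∨ y = δ • x) := by
  by_cases h : x + invo ι x = 0
  · refine ⟨δ • x, smul_ne_zero hδ hx, ?_, Or.inr rfl⟩
    rw [invo_smul, hδι, eq_neg_of_add_eq_zero_right h, smul_neg, neg_smul, neg_neg]
  · refine ⟨x + invo ι x, h, ?_, Or.inl rfl⟩
    rw [invo_add, invo_invo hι, add_comm]

theorem exists_delta (hρ : ∀ m, ρ (ρ (ρ m)) = m) (hι : ∀ m, ι (ι m) = m)
    (hιρ : ∀ m, ι (ρ m) = ρ (ρ (ι m))) {s : L} (hs : ρ s ≠ s) :
    ∃ δ : L, δ ≠ 0 ∧ ι δ = -δ := by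
  by_contra hne
  push Not at hne
  have h1 : ∀ t, ι t = t := by
    intro t
    by_contra h2
    exact hne (t - ι t) (fun h3 => h2 (sub_eq_zero.1 h3).symm) (by rw [map_sub, hι]; ring)
  apply hs
  have h2 := hιρ s
  rw [h1, h1] at h2
  have h3 := congrArg ρ h2
  rw [hρ] at h3
  rw [h3] at h2
  exact h2.symm ▸ h3 ▸ rfl

variable (hρ : ∀ m, ρ (ρ (ρ m)) = m) (hι : ∀ m, ι (ι m) = m)
  (hιρ : ∀ m, ι (ρ m) = ρ (ρ (ι m))) (hδ : ∃ δ : L, δ ≠ 0 ∧ ι δ = -δ)

include hρ hι hιρ hδ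

theorem path_aux {v w : OctL L a b c} (hv : Pt ρ v) (hw : Pt ρ w) (hvI : invo ι v = v)
    (hwI : invo ι w = w) (h : Oct.bil v w = 0) :
    ∃ z, Pt ρ z ∧ invo ι z = z ∧ Nb ρ v z ∧ Nb ρ z w := by
  have e : invo ι (tri ρ v w) = tri ρ w v := by rw [invo_tri hρ hιρ, hvI, hwI]
  by_cases h1 : tri ρ v w = 0
  · have h2 : tri ρ w v = 0 := by
      rw [← e, h1]
      have h3 := invo_smul (ι := ι) (0 : L) (0 : OctL L a b c)
      rwa [zero_smul, map_zero, zero_smul] at h3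
    exact ⟨w, hw, hwI, ⟨h1, h2⟩, hw.nb_self⟩
  · obtain ⟨m1, m2, m3⟩ := mid hρ hv hw h
    obtain ⟨m4, m5, m6⟩ := mid hρ hw hv (by rw [bil_comm]; exact h)
    obtain ⟨δ, hδ0, hδι⟩ := hδ
    obtain ⟨y, hy0, hyI, hy⟩ := exists_fix hδ0 hδι hι h1
    rw [e] at hy
    have c1 : tri ρ (tri ρ v w) (tri ρ w v) = 0 := by
      have h5 := polar1 hρ v w (tri ρ w v)
      have h6 : Oct.bil v (tri ρ w v) = 0 := by
        rw [bil_comm, bil_tri hρ, hv.2, bil_zero_left, map_zero]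
      rwa [Orb.tri_tri hρ, hw.norm hρ, map_zero, map_zero, zero_smul, tri_zero_left, add_zero, h6,
        map_zero, map_zero, zero_smul] at h5
    have c2 : tri ρ (tri ρ w v) (tri ρ v w) = 0 := by
      have h5 := polar1 hρ w v (tri ρ v w)
      have h6 : Oct.bil w (tri ρ v w) = 0 := by
        rw [bil_comm, bil_tri hρ, hw.2, bil_zero_left, map_zero]
      rwa [Orb.tri_tri hρ, hv.norm hρ, map_zero, map_zero, zero_smul, tri_zero_left, add_zero, h6,
        map_zero, map_zero, zero_smul] at h5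
    refine ⟨y, ⟨hy0, ?_⟩, hyI, ?_, ?_⟩
    · rcases hy with rfl | rfl
      · rw [tri_add_left, tri_add_right, tri_add_right, m1, m4, c1, c2]
        simp only [add_zero]
      · rw [tri_smul_left, tri_smul_right, m1, smul_zero, smul_zero]
    · rcases hy with rfl | rfl
      · exact m2.add m6.symm
      · exact m2.smul _
    · rcases hy with rfl | rfl
      · exact (m3.symm.add m5).symm
      · exact (m3.symm.smul _).symm

/-- **Chains of length three** of singular elements fixed by `I`. -/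
theorem path {v w : OctL L a b c} (hv : Pt ρ v) (hw : Pt ρ w) (hvI : invo ι v = v)
    (hwI : invo ι w = w) (hn : ∃ u, Pt ρ u ∧ invo ι u = u ∧ Nb ρ v u ∧ ∀ t : L, u ≠ t • v) :
    ∃ u z, Pt ρ u ∧ invo ι u = u ∧ Pt ρ z ∧ invo ι z = z ∧ Nb ρ v u ∧ Nb ρ u z ∧ Nb ρ z w := by
  by_cases h : Oct.bil v w = 0
  · obtain ⟨z, hz, hzI, h1, h2⟩ := path_aux hρ hι hιρ hδ hv hw hvI hwI h
    exact ⟨v, z, hv, hvI, hz, hzI, hv.nb_self, h1, h2⟩
  · obtain ⟨u, hu, huI, h1, h2⟩ := hn
    obtain ⟨t, ht⟩ : ∃ t : L, t = -(Oct.bil u w / Oct.bil v w) := ⟨_, rfl⟩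
    have htι : ι t = t := by
      rw [ht, map_neg, map_div₀, ← bil_invo, ← bil_invo, huI, hvI, hwI]
    have h3 : Nb ρ v (u + t • v) := h1.add (hv.nb_self.smul t)
    have h4 : Nb ρ u (u + t • v) := hu.nb_self.add (h1.symm.smul t)
    have h5 : tri ρ (u + t • v) (u + t • v) = 0 := by
      rw [tri_add_left, tri_smul_left, h4.1, h3.1, smul_zero, add_zero]
    have h6 : u + t • v ≠ 0 := by
      intro h0
      apply h2 (-t)
      rw [neg_smul]
      exact eq_neg_of_add_eq_zero_left h0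
    have h7 : Oct.bil (u + t • v) w = 0 := by
      rw [bil_add_left, bil_smul_left, ht]
      field_simp
      ring
    have h8 : invo ι (u + t • v) = u + t • v := by
      rw [invo_add, invo_smul, huI, hvI, htι]
    obtain ⟨z, hz, hzI, h9, h10⟩ := path_aux hρ hι hιρ hδ ⟨h6, h5⟩ hw h8 hwI h7
    exact ⟨u + t • v, z, ⟨h6, h5⟩, h8, hz, hzI, h3, h9, h10⟩

end conn

end Vale.Agent.P011.D4I
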